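import Vale.Agent.P283R.Tp.Top0
import Vale.Agent.P287D.Hd.Cm

/-!
# P283R, block BC: the orders of a norm
-/

open Set

noncomputable section

namespace Vale.Agent.P283R.Bc

open Vale.Agent.P287D Vale.Agent.P297Z

variable {K K' : Type} [Field K] [Algebra ℂ K] [Field K'] [Algebra ℂ K'] [Algebra K K']
  [IsScalarTower ℂ K K'] {d : ℕ}

theorem nrm (hK : FF K d) (hK' : FF K' d) {φ : K'} (φ0 : φ ≠ 0) :
    ∃ ψ : K, ψ ≠ 0 ∧ ∀ (P : Pl K) (c : ℝ),
      ((∀ Q, Lies (algebraMap K K') Q P → c * Q.ord (algebraMap K K' P.t) ≤ Q.ord φ) →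
        c * Module.finrank K K' ≤ P.ord ψ) ∧
      ((∀ Q, Lies (algebraMap K K') Q P → Q.ord φ < c * Q.ord (algebraMap K K' P.t)) →
        P.ord ψ < c * Module.finrank K K') := by
  have := Pb.fin_of_ff hK hK'
  have : CharZero K := charZero_of_injective_algebraMap (algebraMap ℂ K).injective
  let E := AlgebraicClosure K
  let L := IntermediateField.normalClosure K K' E
  have hL : FF L d := Hd.ff_up hK
  let e : (K' →ₐ[K] L) ≃ (K' →ₐ[K] E) := normalClosure.algHomEquiv K K' E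
  have cd : Fintype.card (K' →ₐ[K] L) = Module.finrank K K' :=
    (Fintype.card_congr e).trans (AlgHom.card K K' E)
  have pr : algebraMap K L (Algebra.norm K φ) = ∏ σ : K' →ₐ[K] L, σ φ := by
    refine (algebraMap L E).injective ?_
    rw [← IsScalarTower.algebraMap_apply, Algebra.norm_eq_prod_embeddings, map_prod]
    exact (Fintype.prod_equiv e _ _ fun _ => rfl).symm
  refine ⟨Algebra.norm K φ, Algebra.norm_ne_zero_iff.2 φ0, fun P c => ?_⟩
  obtain ⟨R, l⟩ := Pb.up_alg hL P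
  have E0 : (0 : ℝ) < R.ord (algebraMap K L P.t) := by exact_mod_cast l.e_pos
  have k : ∀ σ : K' →ₐ[K] L, ∃ (Q : Pl K') (a : ℝ), Lies (algebraMap K K') Q P ∧ 0 < a ∧
      R.ord (σ φ) = a * Q.ord φ ∧
      R.ord (algebraMap K L P.t) = a * Q.ord (algebraMap K K' P.t) := fun σ => by
    let _ := σ.toRingHom.toAlgebra
    have : IsScalarTower ℂ K' L := .of_algebraMap_eq fun c => by
      rw [IsScalarTower.algebraMap_apply ℂ K L, IsScalarTower.algebraMap_apply ℂ K K']
      exact (σ.commutes _).symm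
    obtain ⟨Q, l'⟩ := Pb.down hK' hL R
    refine ⟨Q, R.ord (σ Q.t), fun f => (l f).trans (Iff.trans ?_ (l' _).symm),
      by exact_mod_cast l'.e_pos, by exact_mod_cast l'.ord φ, ?_⟩
    · rw [← σ.commutes]
      rfl
    · rw [← σ.commutes]
      exact_mod_cast l'.ord _
  choose Q a h1 h2 h3 h4 using k
  have s : (R.ord (algebraMap K L P.t) : ℝ) * P.ord (Algebra.norm K φ) =
      ∑ σ : K' →ₐ[K] L, a σ * (Q σ).ord φ := by
    rw [← Int.cast_mul, ← l.ord, pr, R.ord_prod _ fun σ _ => (map_ne_zero σ).2 φ0]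
    push_cast
    exact Finset.sum_congr rfl fun σ _ => h3 σ
  have t : (R.ord (algebraMap K L P.t) : ℝ) * (c * Module.finrank K K') =
      ∑ σ : K' →ₐ[K] L, a σ * (c * (Q σ).ord (algebraMap K K' P.t)) := by
    rw [Finset.sum_congr rfl fun σ _ => (mul_left_comm _ _ _).trans (congrArg _ (h4 σ).symm),
      Finset.sum_const, Finset.card_univ, cd, nsmul_eq_mul]
    ring
  have : Nonempty (K' →ₐ[K] L) := Fintype.card_pos_iff.1 (cd ▸ Module.finrank_pos)
  refine ⟨fun h => le_of_mul_le_mul_left ?_ E0, fun h => lt_of_mul_lt_mul_left ?_ E0.le⟩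
  · rw [s, t]
    exact Finset.sum_le_sum fun σ _ => mul_le_mul_of_nonneg_left (h _ (h1 σ)) (h2 σ).le
  · rw [s, t]
    exact Finset.sum_lt_sum_of_nonempty Finset.univ_nonempty fun σ _ =>
      mul_lt_mul_of_pos_left (h _ (h1 σ)) (h2 σ)

end Vale.Agent.P283R.Bc
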