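import Vale.Agent.P283R.Eb.Can
import Vale.Agent.P283R.Bc.Nrm

/-!
# P283R, block BC: finite morphisms which are étale in codimension one
-/

set_option linter.all false

open Set CategoryTheory AlgebraicGeometry

noncomputable section

namespace Vale.Agent.P283R.Bc

open Vale.Agent.P289 (Pt St toRat val DForm dimension)
open Vale.Agent.P287D Vale.Agent.P283M Vale.Agent.P283M.Stm Vale.Agent.P283M.Stm.Var
open Vale.Agent.P283M.Br Vale.Agent.P283R.Br Vale.Agent.P297Z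
open Vale.Agent.P283R.Et (Pe Rat exists_rat)
open Vale.Agent.P283R.Eb (Lin Same ord_mul' ord_pow')

variable {X Y : Var}

/-- `π` is finite, onto, of degree at most `J` and étale in codimension one -/
structure Qp (J : ℕ) (π : Y.X ⟶ X.X) (ι : X.K →+* Y.K) : Prop where
  fin : IsFinite π
  sur : Surjective π
  ov : π ≫ X.str = Y.str
  pe : Pe π ι
  deg : ∃ b : Fin J → Y.K, ∀ g, ∃ c : Fin J → X.K, g = ∑ i, ι (c i) * b i
  div : ∀ E : Y.PrimeDiv, ∃ y : X.PrimeDiv, E.1.map π = y.1 ∧ ∀ a, ord (ι a) E = ord a y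

variable {π : Y.X ⟶ X.X} {ι : X.K →+* Y.K} {J d m : ℕ}
  {D' : Y.PrimeDiv → ℚ} {D : X.PrimeDiv → ℚ} {j : Y.K} {g : X.K}

theorem Qp.tower (h : Qp J π ι) : letI := ι.toAlgebra; IsScalarTower ℂ X.K Y.K :=
  letI := ι.toAlgebra
  .of_algebraMap_eq fun c => (h.pe.cst h.ov c).symm

theorem Qp.rank (h : Qp J π ι) :
    letI := ι.toAlgebra; FiniteDimensional X.K Y.K ∧ Module.finrank X.K Y.K ≤ J := by
  let _ := ι.toAlgebra
  obtain ⟨b, hb⟩ := h.deg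
  have e : Submodule.span X.K (range b) = ⊤ := eq_top_iff.2 fun g _ => by
    obtain ⟨c, rfl⟩ := hb g
    exact Submodule.sum_mem _ fun i _ => Submodule.smul_mem _ (c i) (Submodule.subset_span ⟨i, rfl⟩)
  exact ⟨Module.Finite.of_fg_top (e ▸ Submodule.fg_span (finite_range b)),
    (finrank_le_of_span_eq_top e).trans_eq (Fintype.card_fin J)⟩

theorem Qp.ff (h : Qp J π ι) (hK : FF X.K d) : FF Y.K d := by
  let _ := ι.toAlgebra
  have := h.tower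
  have := h.rank.1
  exact Hd.ff_up hK

theorem Qp.dim (h : Qp J π ι) (hd : dimension X.str = d) : dimension Y.str = d :=
  (h.ff (ffd X d hd)).trdeg

/-- local equations pull back -/
theorem Qp.loc (h : Qp J π ι) (l : Lin π D' D j) {x : Pt Y.X}
    (hg : LocalEq D m g (x.map π)) : LocalEq D' m (ι g * j ^ m) x := by
  have g0 := (map_ne_zero ι).2 hg.1
  refine ⟨mul_ne_zero g0 (pow_ne_zero _ l.1), fun E hE => ?_⟩
  obtain ⟨y, y1, y2⟩ := h.div E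
  have a := hg.2 y (y1 ▸ hE.map π.continuous)
  rw [ord_mul' g0 (pow_ne_zero _ l.1), ord_pow', y2, l.2 E y y1]
  push_cast
  rw [a]
  ring

/-- centres of places go down -/
theorem Qp.dom (h : Qp J π ι) {Q : Pl Y.K} {P : Pl X.K} (l : Lies ι Q P) {x : Pt Y.X}
    (hx : Dom Q.ring x) : Dom P.ring (x.map π) := fun a ha => by
  have r := h.pe.reg ha
  refine ⟨(l a).2 (hx _ r).1, fun a0 k => ?_⟩
  have a1 := (map_ne_zero ι).2 a0
  exact ((h.pe.un ha).1 ⟨a1, r, (hx _ r).2 a1 (map_inv₀ ι a ▸ (l _).1 k)⟩).2.2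

/-- centres of places go up -/
theorem Qp.up (h : Qp J π ι) {Q : Pl Y.K} {P : Pl X.K} (l : Lies ι Q P) {x : Pt X.X}
    (hx : Dom P.ring x) : ∃ y : Pt Y.X, y.map π = x ∧ Dom Q.ring y := by
  have := h.fin
  obtain ⟨_, ⟨V, hV, rfl⟩, xV, -⟩ :=
    X.X.isBasis_affineOpens.exists_subset_of_mem_open (Set.mem_univ x) isOpen_univ
  obtain ⟨y₀, rfl⟩ := h.sur.surj x
  have : Nonempty ↑(π ⁻¹ᵁ V) := ⟨⟨y₀, xV⟩⟩
  obtain ⟨y, -, k⟩ := Am.exists_dom (f := π) hV Q.ring fun a => by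
    rw [← Am.pl_germ xV a]
    exact (congrArg (· ∈ Q.ring) (h.pe y₀ _)).mp ((l _).1 (hx _ ⟨_, rfl⟩).1)
  exact ⟨y, Crv.dom_unique (dom_S (h.dom l (dom_B k))) (dom_S hx), dom_B k⟩

theorem Qp.lin (h : Qp J π ι) (hK : FF X.K d) {ω : DForm ℂ X.K d}
    {ω' : DForm ℂ Y.K d} {s : X.K} {s' j : Y.K} (s0 : s ≠ 0) (s0' : s' ≠ 0) (fr : Br.Frm ω s)
    (fr' : Br.Frm ω' s') (hJ : letI := ι.toAlgebra; Rat d X.K j) {B : X.QDiv} {B' : Y.QDiv}
    (hs : Same π B' B) : Lin π (logCan ω' B') (logCan ω B) (j * s' / ι s) := by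
  let _ := ι.toAlgebra
  have := h.tower
  have hK' := h.ff hK
  have s1 := (map_ne_zero ι).2 s0
  refine ⟨div_ne_zero (mul_ne_zero hJ.1 s0') s1, fun E y e => ?_⟩
  obtain ⟨y₀, y1, y2⟩ := h.div E
  obtain rfl : y₀ = y := Subtype.ext (y1.symm.trans e)
  obtain ⟨Q, q, o⟩ := pl_of plc E
  obtain ⟨P, p, o'⟩ := pl_of plc y₀
  have oo : ∀ a, Q.ord (ι a) = P.ord a := fun a => by rw [← o, ← o', y2]
  have l : Lies (algebraMap X.K Y.K) Q P := fun a => by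
    rcases eq_or_ne a 0 with rfl | a0
    · simp
    · rw [← Pl.ord_nonneg_iff _ a0, ← Pl.ord_nonneg_iff _ ((map_ne_zero _).2 a0)]
      exact (oo a).symm ▸ Iff.rfl
  have k := hJ.dsc_up hK hK' one_pos one_ne_zero l
  have e1 : Q.ord (algebraMap X.K Y.K P.t) = 1 := (oo _).trans P.ord_t
  rw [e1] at k
  simp only [dsc, Pi.sub_apply, Pi.smul_apply, smul_eq_mul, dv_apply, map_one, one_mul, pow_one,
    Nat.cast_one, inv_one, Pl.ord_one, Int.cast_one, Int.cast_zero, sub_zero] at k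
  have a := fr _ _ y₀ P p o'
  have a' := fr' _ _ E Q q o
  rw [logCan, logCan, hs E y₀ e, o, Pl.ord_div _ (mul_ne_zero hJ.1 s0') s1,
    Pl.ord_mul _ hJ.1 s0', oo, ← Rat.cast_inj (α := ℝ)]
  push_cast
  rw [a, a']
  linarith

theorem Qp.can (h : Qp J π ι) {ω : DForm ℂ X.K d} {ω' : DForm ℂ Y.K d} (hd : dimension X.str = d)
    (h0 : ω.Nonzero) (h0' : ω'.Nonzero) : ∃ j, ∀ (B : X.QDiv) (B' : Y.QDiv),
      Same π B' B → Lin π (logCan ω' B') (logCan ω B) j := by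
  let _ := ι.toAlgebra
  have := h.tower
  have hK := ffd X _ hd
  have hK' := h.ff hK
  obtain ⟨s, s0, fr⟩ := frm X _ hK ω h0
  obtain ⟨s', s0', fr'⟩ := frm Y _ hK' ω' h0'
  obtain ⟨J, hJ⟩ := exists_rat hK hK'
  exact ⟨_, fun B B' hs => h.lin hK s0 s0' fr fr' hJ hs⟩

theorem Qp.pai (h : Qp J π ι) {ω : DForm ℂ X.K d} {ω' : DForm ℂ Y.K d} {B : X.QDiv} {B' : Y.QDiv}
    {p : ℝ → Prop} (hd : dimension X.str = d) (h0 : ω.Nonzero) (h0' : ω'.Nonzero)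
    (hs : Same π B' B) (hp : ∀ a e : ℝ, 1 ≤ e → p a → p (e * a)) (hB : Pair p ⊤ ω B) :
    Pair p ⊤ ω' B' := by
  let _ := ι.toAlgebra
  have := h.tower
  have hK := ffd X _ hd
  have hK' := h.ff hK
  obtain ⟨s, s0, fr⟩ := frm X _ hK ω h0
  obtain ⟨s', s0', fr'⟩ := frm Y _ hK' ω' h0'
  obtain ⟨J, hJ⟩ := exists_rat hK hK'
  have l := h.lin hK s0 s0' fr fr' hJ hs
  refine ⟨fun E _ => ?_, fun x _ => ?_, fun M E _ m' g' m0' hg' => ?_⟩
  · obtain ⟨y, y1, -⟩ := h.div E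
    rw [hs E y y1]
    exact hB.1 y trivial
  · obtain ⟨m, g, m0, hg⟩ := hB.2.1 (Pt.map π x) trivial
    exact ⟨m, _, m0, h.loc l hg⟩
  · obtain ⟨⟨Q, q⟩, o⟩ := plc Y M.Y M.pull (mdc Y M).1 E
    have dq := (mdc Y M).2 E Q q
    obtain ⟨P, lp⟩ := Pb.down hK hK' Q
    have dp := h.dom lp dq
    obtain ⟨m, g, m0, hg⟩ := hB.2.1 (Pt.map π (Pt.map M.π E.1)) trivial
    have lq := h.loc l hg
    obtain ⟨M₀, E₀, e₀, i⟩ := mod X P _ dp
    have o₀ := (plc X M₀.Y M₀.pull (mdc X M₀).1 E₀).2 P i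
    have a := hB.2.2 M₀ E₀ trivial m g m0 (e₀ ▸ hg)
    rw [fr _ _ E₀ P i o₀, o₀, ← dsc_eq m0 hg.1 s0] at a
    have e1 : (1 : ℝ) ≤ Q.ord (algebraMap X.K Y.K P.t) := by exact_mod_cast lp.e_pos
    have b := hp _ _ e1 a
    have s1 := (map_ne_zero ι).2 s0
    have c : algebraMap X.K Y.K (g / s ^ m) * J ^ m = ι g * (J * s' / ι s) ^ m / s' ^ m := by
      change ι _ * _ = _
      rw [map_div₀, map_pow, div_pow, mul_pow]
      field_simp
    rw [← hJ.dsc_up hK hK' m0 (div_ne_zero hg.1 (pow_ne_zero _ s0)) lp, c,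
      dsc_eq m0 lq.1 s0'] at b
    have u := loc_uniq har plc hg' lq dq
    have u' : (Q.ord g' : ℝ) / m' = Q.ord (ι g * (J * s' / ι s) ^ m) / m := by
      rw [div_eq_div_iff (Nat.cast_ne_zero.2 m0'.ne') (Nat.cast_ne_zero.2 m0.ne')]
      linarith
    rw [fr' _ _ E Q q (o Q q), o Q q, u']
    exact b

end Vale.Agent.P283R.Bc
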