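import Vale.Agent.P283R.Bc.Bas

/-!
# P283R, block BC: the complement descends by the norm
-/

set_option linter.all false

open Set CategoryTheory AlgebraicGeometry

noncomputable section

namespace Vale.Agent.P283R.Bc

open Vale.Agent.P289 (Pt St toRat val DForm dimension)
open Vale.Agent.P287D Vale.Agent.P283M Vale.Agent.P283M.Stm Vale.Agent.P283M.Stm.Var
open Vale.Agent.P283M.Br Vale.Agent.P283R.Br Vale.Agent.P297Z
open Vale.Agent.P283R.Et (Pe Rat exists_rat)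
open Vale.Agent.P283R.Eb (Lin Same ord_mul' ord_pow')

variable {X Y Z : Var} {π : Y.X ⟶ X.X} {ι : X.K →+* Y.K} {J d n : ℕ}

/-- `n (K + Λ) = div φ` on the open set `T`, with `Λ ≥ B` and klt -/
def Cp (T : Y.X.Opens) (ω : DForm ℂ Y.K d) (B : Y.QDiv) (n : ℕ) : Prop :=
  ∃ (Λ : Y.QDiv) (φ : Y.K), (∀ y, y.1 ∈ T → B y ≤ Λ y) ∧
    Pair (0 < ·) T ω Λ ∧ ∀ x ∈ T, LocalEq (logCan ω Λ) n φ x

/-- comparison of local equations -/
theorem ord_le {D D' : Y.PrimeDiv → ℚ} {m m' : ℕ} {a b : Y.K} {x : Pt Y.X} {Q : Pl Y.K}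
    (h : LocalEq D m a x) (h' : LocalEq D' m' b x) (le : ∀ E : Y.PrimeDiv, E.1 ⤳ x → D E ≤ D' E)
    (q : Dom Q.ring x) : (m' : ℝ) * Q.ord a ≤ m * Q.ord b := by
  have a0 := pow_ne_zero m' h.1
  have b0 := pow_ne_zero m h'.1
  have r := (q _ (har Y (b ^ m / a ^ m') x fun E hE => by
    obtain ⟨P, -, o⟩ := pl_of plc E
    have k := h.2 E hE
    have k' := h'.2 E hE
    rw [o] at k k' ⊢
    rw [Pl.ord_div _ b0 a0, Pl.ord_pow, Pl.ord_pow, ← Int.cast_nonneg_iff (R := ℚ)]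
    push_cast
    rw [k, k']
    nlinarith [mul_nonneg (mul_nonneg (Nat.cast_nonneg m : (0 : ℚ) ≤ m) (Nat.cast_nonneg m'))
      (sub_nonneg.2 (le E hE))])).1
  have := Pl.ord_nonneg_of_mem _ r
  rw [Pl.ord_div _ b0 a0, Pl.ord_pow, Pl.ord_pow, sub_nonneg] at this
  exact_mod_cast this

/-- **the descent** -/
theorem Qp.dsc (h : Qp J π ι) {f : X.X ⟶ Z.X} (hf : Contraction f) {ω : DForm ℂ X.K d}
    {ω' : DForm ℂ Y.K d} {B : X.QDiv} {B' : Y.QDiv} {z : Pt Z.X} (hd : 1 ≤ d) (hn : 1 ≤ n)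
    (hdim : dimension X.str = d) (h0 : ω.Nonzero) (h0' : ω'.Nonzero) (hs : Same π B' B)
    (hB : ∀ y, 0 ≤ B y) (qc : ∀ x, ∃ m a, 0 < m ∧ LocalEq (logCan ω B) m a x) {T : Y.X.Opens}
    (hT : ∀ y : Pt Y.X, (y.map π).map f = z → y ∈ T) (c : Cp T ω' B' n) :
    ∃ r, 1 ≤ r ∧ r ≤ J ∧ HasKltComplement f ω B (n * r) z := by
  obtain ⟨d, rfl⟩ : ∃ m, d = m + 1 := ⟨d - 1, by omega⟩
  obtain ⟨Λ, φ, hΛ, hp, lq⟩ := c
  let _ := ι.toAlgebra
  have := h.tower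
  have := h.rank.1
  have := h.fin
  have := hf.2.1
  have hK := ffd X _ hdim
  have hK' := h.ff hK
  obtain ⟨s, s0, fr⟩ := frm X _ hK ω h0
  obtain ⟨s', s0', fr'⟩ := frm Y _ hK' ω' h0'
  obtain ⟨j, hj⟩ := exists_rat hK hK'
  have l := h.lin hK s0 s0' fr fr' hj hs
  obtain ⟨x₀, hx₀⟩ := hf.2.2.1.surj z
  obtain ⟨y₀, rfl⟩ := h.sur.surj x₀
  have φ0 : φ ≠ 0 := (lq y₀ (hT y₀ hx₀)).1
  have n0 : (0 : ℝ) < n := Nat.cast_pos.2 hn
  have r1 : 1 ≤ Module.finrank X.K Y.K := Module.finrank_pos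
  have r0 : (0 : ℝ) < Module.finrank X.K Y.K := Nat.cast_pos.2 r1
  have j1 := pow_ne_zero n (mul_ne_zero s0' hj.1)
  have o : ∀ Q : Pl Y.K, (Q.ord (φ / (s' * j) ^ n) : ℝ) = Q.ord φ - n * (Q.ord s' + Q.ord j) :=
    fun Q => by
      rw [Pl.ord_div _ φ0 j1, Pl.ord_pow, Pl.ord_mul _ s0' hj.1]
      push_cast
      rfl
  obtain ⟨ψ, ψ0, H⟩ := nrm hK hK' (div_ne_zero φ0 j1)
  let U : Z.X.Opens := ⟨((π ≫ f) '' (T : Set Y.X)ᶜ)ᶜ,
    ((π ≫ f).isClosedMap _ T.isOpen.isClosed_compl).isOpen_compl⟩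
  have up : ∀ x ∈ f ⁻¹ᵁ U, ∀ (P : Pl X.K) (Q : Pl Y.K), Dom P.ring x →
      Lies (algebraMap X.K Y.K) Q P → ∃ y ∈ T, Pt.map π y = x ∧ Dom Q.ring y := by
    intro x hx P Q p q
    obtain ⟨y, rfl, k⟩ := h.up q p
    exact ⟨y, by_contra fun c => hx ⟨y, c, rfl⟩, rfl, k⟩
  refine ⟨_, r1, h.rank.2, cpl hK fr s0 hB (U := U) (fun ⟨y, c, e⟩ => c (hT y e))
    (Nat.mul_pos hn r1) ψ0 (fun E hE P p => ?_) fun x hx P p => ?_⟩
  · have a := (H P (n * (cn X.K (d + 1) P + B E))).1 fun Q q => by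
      obtain ⟨y, yT, e, k⟩ := up _ hE P Q p q
      obtain ⟨m, a, m0, ha⟩ := qc E.1
      have m1 : (0 : ℝ) < m := Nat.cast_pos.2 m0
      have b := ord_le (h.loc l (e ▸ ha)) (lq y yT) (fun E' hE' => by
        rw [logCan, logCan]
        exact add_le_add_right (hΛ E' (hE'.mem_open T.isOpen yT)) _) k
      obtain ⟨P', p', o'⟩ := pl_of plc E
      obtain rfl := pl_eq p' p
      have c : (P'.ord a : ℝ) = m * (formOrd ω (RingEquiv.refl X.K) E + (B E : ℝ)) := by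
        have := ha.2 E specializes_rfl
        rw [o', logCan] at this
        exact_mod_cast this
      have s1 := (map_ne_zero ι).2 s0
      rw [fr _ _ E P' p' o'] at c
      rw [Pl.ord_mul _ ((map_ne_zero ι).2 ha.1) (pow_ne_zero _ l.1), Pl.ord_pow,
        Pl.ord_div _ (mul_ne_zero hj.1 s0') s1, Pl.ord_mul _ hj.1 s0'] at b
      have e1 : Q.ord (ι a) = Q.ord (algebraMap X.K Y.K P'.t) * P'.ord a := q.ord a
      have e2 : Q.ord (ι s) = Q.ord (algebraMap X.K Y.K P'.t) * P'.ord s := q.ord s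
      rw [e1, e2] at b
      push_cast at b
      rw [c] at b
      rw [o]
      refine le_of_mul_le_mul_left ?_ m1
      linarith
    simp only [dsc, Pi.sub_apply, Pi.smul_apply, dv_apply, smul_eq_mul]
    have : cn X.K (d + 1) P + B E ≤ ((n * Module.finrank X.K Y.K : ℕ) : ℝ)⁻¹ * P.ord ψ := by
      rw [le_inv_mul_iff₀ (by positivity)]
      push_cast
      linarith
    linarith
  · have a := (H P (n * (1 + cn X.K (d + 1) P))).2 fun Q q => by
      obtain ⟨y, yT, -, k⟩ := up _ hx P Q p q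
      obtain ⟨M, E, rfl, i⟩ := mod Y Q y k
      have oq := (plc Y M.Y M.pull (mdc Y M).1 E).2 Q i
      have b := hp.2.2 M E yT n φ hn (lq _ yT)
      rw [fr' _ _ E Q i oq, oq] at b
      have c := hj.dsc_up hK hK' one_pos one_ne_zero q
      simp only [dsc, Pi.sub_apply, Pi.smul_apply, smul_eq_mul, dv_apply, map_one, one_mul,
        pow_one, Nat.cast_one, inv_one, Pl.ord_one, Int.cast_zero, sub_zero] at c
      have b' : (Q.ord φ : ℝ) < n * (1 + cn Y.K (d + 1) Q + Q.ord s') := by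
        rw [← div_lt_iff₀' n0]
        linarith
      rw [o, mul_assoc, mul_comm _ (Q.ord (algebraMap X.K Y.K P.t) : ℝ), ← c]
      linarith
    simp only [dsc, Pi.sub_apply, Pi.smul_apply, dv_apply, smul_eq_mul]
    have : ((n * Module.finrank X.K Y.K : ℕ) : ℝ)⁻¹ * P.ord ψ < 1 + cn X.K (d + 1) P := by
      rw [inv_mul_lt_iff₀ (by positivity)]
      push_cast
      linarith
    linarith

end Vale.Agent.P283R.Bc
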