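import Vale.Agent.P283R.Bc.Dsc
import Vale.Agent.P283R.Eb.Dscr
import Vale.Agent.P283R.Eb.Amp

/-!
# P283R, block BC: one complement near finitely many points
-/

set_option linter.all false

open Set CategoryTheory AlgebraicGeometry
open Vale.Agent.P289 Vale.Agent.P289.H219 Vale.Agent.P270L Vale.Agent.P283M.Am Vale.Agent.P299.G

noncomputable section

namespace Vale.Agent.P283R.Bc

open Vale.Agent.P287D Vale.Agent.P283M Vale.Agent.P283M.Br Vale.Agent.P283M.Stm.Var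
open Vale.Agent.P283M.Stm (Contraction Pair HasKltComplement)
open Vale.Agent.P297Z Vale.Agent.P283R.Br Vale.Agent.P283R.Eb Vale.Agent.P283R.Eb.Ds

variable {X Z : Stm.Var} {f : X.X ⟶ Z.X} {n : ℕ} {h : X.K}

/-- a complement from a function -/
theorem cp_of {ω : DForm ℂ X.K (n + 1)} {B : X.QDiv} (hK : FF X.K (n + 1)) (fr : P283M.Br.Frm ω h)
    (h0 : h ≠ 0) (hB : ∀ E, 0 ≤ B E) {T : X.X.Opens} {N : ℕ} (N1 : 1 ≤ N) {φ : X.K} (φ0 : φ ≠ 0)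
    (h1 : ∀ E : X.PrimeDiv, E.1 ∈ T → ∀ P : Pl X.K, Dom P.ring E.1 →
      dsc (n + 1) ((N : ℝ)⁻¹ • dv φ) P ≤ -(B E : ℝ))
    (h2 : ∀ x ∈ T, ∀ P : Pl X.K, Dom P.ring x → -1 < dsc (n + 1) ((N : ℝ)⁻¹ • dv φ) P) :
    Cp T ω B N := by
  classical
  have N0 : (N : ℝ) ≠ 0 := Nat.cast_ne_zero.2 (by omega)
  have N0' : (N : ℚ) ≠ 0 := Nat.cast_ne_zero.2 (by omega)
  have ψ0 : φ * h ^ N ≠ 0 := mul_ne_zero φ0 (pow_ne_zero _ h0)
  have oψ : ∀ P : Pl X.K, (P.ord (φ * h ^ N) : ℝ) = P.ord φ + N * P.ord h := fun P => by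
    rw [Pl.ord_mul _ φ0 (pow_ne_zero _ h0), Pl.ord_pow]
    push_cast
    rfl
  let L : X.PrimeDiv → ℚ := fun E => ord (φ * h ^ N) E / N - formOrd ω (RingEquiv.refl X.K) E
  have fL : (Function.support L).Finite := by
    refine ((fin X (φ * h ^ N)).union (form_fin hK fr)).subset fun E hE => ?_
    by_contra k
    rw [mem_union, not_or, mem_setOf, mem_setOf, not_not, not_not] at k
    exact hE (by simp [L, k.1, k.2])
  have eL : ∀ E : X.PrimeDiv, Finsupp.ofSupportFinite L fL E =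
      ord (φ * h ^ N) E / N - formOrd ω (RingEquiv.refl X.K) E := fun E => rfl
  have lq : ∀ x, LocalEq (logCan ω (Finsupp.ofSupportFinite L fL)) N (φ * h ^ N) x :=
    fun x => ⟨ψ0, fun E hE => by
      rw [logCan, eL E]
      field_simp
      ring⟩
  have ge : ∀ E : X.PrimeDiv, E.1 ∈ T → B E ≤ Finsupp.ofSupportFinite L fL E := by
    intro E c
    obtain ⟨Q, e, o⟩ := pl_of plc E
    have a := h1 E c Q e.dom
    rw [dsc, Pi.sub_apply, Pi.smul_apply, smul_eq_mul, dv_apply] at a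
    rw [eL E, o, ← Rat.cast_le (K := ℝ)]
    push_cast
    rw [fr _ _ E Q e o, oψ, add_div, mul_div_cancel_left₀ _ N0, div_eq_inv_mul]
    linarith
  refine ⟨Finsupp.ofSupportFinite L fL, φ * h ^ N, ge,
    ⟨fun E c => (hB E).trans (ge E c), fun x _ => ⟨N, _, N1, lq x⟩,
      fun M E c m g m0 hg => ?_⟩, fun x _ => lq x⟩
  obtain ⟨⟨Q, e⟩, o⟩ := plc X M.Y M.pull (mdc X M).1 E
  have dm := (mdc X M).2 E Q e
  have a := h2 _ c Q dm
  have b := loc_uniq har plc hg (lq _) dm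
  have m0' : (m : ℝ) ≠ 0 := Nat.cast_ne_zero.2 m0.ne'
  have b' : (Q.ord g : ℝ) / m = (N : ℝ)⁻¹ * Q.ord φ + Q.ord h := by
    rw [oψ] at b
    field_simp
    linarith
  rw [dsc, Pi.sub_apply, Pi.smul_apply, smul_eq_mul, dv_apply] at a
  show (0 : ℝ) < _
  rw [fr _ _ E Q e (o Q e), o Q e, b']
  linarith

/-- a local complement gives a section over the affine set -/
theorem sec_of {ω : DForm ℂ X.K (n + 1)} {B : X.QDiv} {N : ℕ} {y : Fin (n + 1) → X.K}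
    (hf : Contraction f) (hK : FF X.K (n + 1)) (fr : P283M.Br.Frm ω h) (h0 : h ≠ 0)
    (e : cn X.K (n + 1) = kap y) {V : Z.X.Opens} (hV : IsAffineOpen V) {z : Pt Z.X} (zV : z ∈ V)
    {A : Subalgebra ℂ X.K} {χ : A →ₐ[ℂ] ℂ} (bs : Bz f V z A χ) (N1 : 1 ≤ N)
    (c : HasKltComplement f ω B N z) : ∃ ψ : X.K, ψ ≠ 0 ∧
      (∀ E : X.PrimeDiv, E.1 ∈ f ⁻¹ᵁ V → ∀ P : Pl X.K, Is (RingEquiv.refl X.K) E P →
        (2 * N : ℕ) * (cn X.K (n + 1) P + B E) ≤ P.ord ψ) ∧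
      ∀ P, Thr A χ P → 0 < ld y (2 * N) ψ P := by
  obtain ⟨U, Λ, φ, zU, hΛ, hp, lq⟩ := c
  obtain ⟨b, b1, b2⟩ := hV.exists_basicOpen_le (V := U) ⟨z, zU⟩ zV
  obtain ⟨x₀, rfl⟩ := hf.2.2.1.surj z
  have : Nonempty ↑(f ⁻¹ᵁ V) := ⟨⟨x₀, zV⟩⟩
  have φ0 : φ ≠ 0 := (lq x₀ zU).1
  have n0 : (0 : ℝ) < N := Nat.cast_pos.2 N1
  have r : ∀ x ∈ f ⁻¹ᵁ V, RegAt (pl f V b) x := mem_reg.1 (pl_reg f V b)
  have u : ∀ x ∈ f ⁻¹ᵁ V, UnAt (pl f V b) x ↔ f x ∈ Z.X.basicOpen b := fun x hx => un_pl hx b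
  generalize pl f V b = β at r u
  have β0 : β ≠ 0 := ((u x₀ zV).2 b2).1
  obtain ⟨M, hM⟩ := Amp.bound (c := fun E : X.PrimeDiv => (ord φ E : ℚ) - N * logCan ω B E)
    (((fin X φ).union ((form_fin hK fr).union B.support.finite_toSet)).subset fun E a => by
      by_contra c
      simp only [mem_union, mem_setOf_eq, not_or, not_not, Finset.mem_coe,
        Finsupp.notMem_support_iff] at c
      exact a (by simp [logCan, c.1, c.2.1, c.2.2]))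
  have t0 := div_ne_zero (mul_ne_zero φ0 (pow_ne_zero M β0)) (pow_ne_zero N h0)
  have o : ∀ P : Pl X.K, (P.ord ((φ * β ^ M / h ^ N) ^ 2) : ℝ) =
      2 * (P.ord φ + M * P.ord β - N * P.ord h) := fun P => by
    rw [Pl.ord_pow, Pl.ord_div _ (mul_ne_zero φ0 (pow_ne_zero M β0)) (pow_ne_zero N h0),
      Pl.ord_mul _ φ0 (pow_ne_zero M β0), Pl.ord_pow, Pl.ord_pow]
    push_cast
    rfl
  refine ⟨_, pow_ne_zero 2 t0, fun E hE P p => ?_, fun P p => ?_⟩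
  · have oq := (plc X X (RingEquiv.refl _) (fun _ => rfl) E).2 P p
    have k : (N : ℚ) * logCan ω B E ≤ ord φ E + M * ord β E := by
      by_cases c : UnAt β E.1
      · have hU : E.1 ∈ f ⁻¹ᵁ U := b1 ((u _ hE).1 c)
        rw [Amp.o_un c specializes_rfl, (lq _ hU).2 E specializes_rfl, mul_zero, add_zero, logCan,
          logCan]
        exact mul_le_mul_of_nonneg_left (add_le_add_right (hΛ E hU) _) (Nat.cast_nonneg _)
      · have := mul_le_mul_of_nonneg_left (Amp.o_pos (r _ hE) β0 c) (Nat.cast_nonneg M : (0 : ℚ) ≤ M)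
        linarith [hM E]
    have oq' : ∀ g, ord g E = P.ord g := oq
    rw [oq', oq', logCan, ← Rat.cast_le (K := ℝ)] at k
    push_cast at k ⊢
    rw [fr _ _ E P p oq] at k
    rw [o]
    linarith
  · obtain ⟨x', c1, c2⟩ := bs.fib hf p
    have c3 : f x' = f x₀ := c1
    have x1 : x' ∈ f ⁻¹ᵁ V := show f x' ∈ V from c3 ▸ zV
    have v := (u x' x1).2 (c3 ▸ b2)
    have z0 : P.ord β = 0 := by
      have a1 := Pl.ord_nonneg_of_mem _ (c2 _ v.2.1)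
      have a2 := Pl.ord_nonneg_of_mem _ (c2 _ v.2.2)
      rw [Pl.ord_inv] at a2
      omega
    obtain ⟨x, hx, d⟩ := bs.ctr P p.1
    have s := bs.sp x hx fun a ha => un_of_rd d ((bs.mem _).1 a.2 x hx) (mt (p.2 a) ha)
    have xU : x ∈ f ⁻¹ᵁ U := s.mem_open U.isOpen zU
    obtain ⟨M', E, rfl, i⟩ := mod X P x d
    have oq := (plc X M'.Y M'.pull (mdc X M').1 E).2 P i
    have b1 := hp.2.2 M' E xU N φ N1 (lq _ xU)
    rw [fr _ _ E P i oq, oq, e] at b1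
    rw [ld, o, z0]
    push_cast
    rw [mul_div_mul_left _ _ (two_ne_zero' ℝ), mul_zero, add_zero, sub_div,
      mul_div_cancel_left₀ _ n0.ne']
    linarith

/-- **the gluing** -/
theorem glue {d N : ℕ} {ω : DForm ℂ X.K d} {B : X.QDiv} (hf : Contraction f) (hd : 1 ≤ d)
    (hdim : dimension X.str = d) (hω : ω.Nonzero) (hB : ∀ E, 0 ≤ B E) {V : Z.X.Opens}
    (hV : IsAffineOpen V) {S : Set (Pt Z.X)} (fi : S.Finite) (ne : S.Nonempty) (N1 : 1 ≤ N)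
    (c : ∀ z ∈ S, z ∈ V ∧ IsClosed ({z} : Set (Pt Z.X)) ∧ HasKltComplement f ω B N z) :
    ∃ U : Z.X.Opens, (∀ z ∈ S, z ∈ U) ∧ Cp (f ⁻¹ᵁ U) ω B (2 * N) := by
  classical
  obtain ⟨n, rfl⟩ : ∃ m, d = m + 1 := ⟨d - 1, by omega⟩
  have hK := ffd X _ hdim
  obtain ⟨h, h0, fr⟩ := frm X _ hK ω hω
  obtain ⟨y, D, hy, e⟩ := Cb.exists_cn hK
  obtain ⟨z₀, hz₀⟩ := ne
  obtain ⟨A, -, b₀⟩ : ∃ A : Subalgebra ℂ X.K, ∃ _ : Unit, ∃ χ, Bz f V z₀ A χ :=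
    let ⟨A, k⟩ := exists_bz hf hV (c z₀ hz₀).1 (c z₀ hz₀).2.1; ⟨A, (), k⟩
  obtain ⟨χ₀, b₀⟩ := b₀
  have k : ∀ z : S, ∃ χ, Bz f V z.1 A χ := fun z => by
    obtain ⟨A', χ, b⟩ := exists_bz hf hV (c z z.2).1 (c z z.2).2.1
    obtain rfl : A' = A := Subalgebra.ext fun a => (b.mem a).trans (b₀.mem a).symm
    exact ⟨χ, b⟩
  choose χ bs using k
  choose ψ p0 p1 p2 using fun z : S => sec_of hf hK fr h0 e hV (c z z.2).1 (bs z) N1 (c z z.2).2.2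
  have := fi.fintype
  have N0 : (0 : ℝ) < (2 * N : ℕ) := Nat.cast_pos.2 (by omega)
  have ld1 : ∀ (f : X.K) (P : Pl X.K), ld y (2 * N) f P =
      1 + dsc (n + 1) (((2 * N : ℕ) : ℝ)⁻¹ • dv f) P := fun f P => by
    simp only [ld, dsc, e, Pi.sub_apply, Pi.smul_apply, dv, smul_eq_mul]
    ring
  obtain ⟨φ, f1, f0, f2⟩ := ber _ (2 * N) X.K A (range fun z => RingHom.ker (χ z)) y
    (Finset.univ.image ψ) hK b₀.fg ⟨D, hy⟩ (by omega)
    ⟨_, Finset.mem_image_of_mem _ (Finset.mem_univ ⟨z₀, hz₀⟩), p0 _⟩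
    fun P ⟨a, _, ⟨z, rfl⟩, b⟩ => ⟨_, Finset.mem_image_of_mem _ (Finset.mem_univ z), p0 _,
      p2 z P ⟨a, b⟩⟩
  choose a ha hk using fun z : S => opn (Nat.succ_pos n) hK b₀.fg (χ z)
    (Γ := ((2 * N : ℕ) : ℝ)⁻¹ • dv φ) (Submodule.smul_mem _ _ (dv_mem_Car φ)) fun P p => by
      linarith [ld1 φ P ▸ f2 P ⟨p.1, _, ⟨z, rfl⟩, p.2⟩]
  choose U UV zU hU using fun z : S => (bs z).un (a z) (ha z)
  have mem : ∀ x ∈ f ⁻¹ᵁ (⨆ z, U z), ∃ z, x ∈ f ⁻¹ᵁ U z := fun x hx =>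
    TopologicalSpace.Opens.mem_iSup (s := U).1 (show f x ∈ ⨆ z, U z from hx)
  refine ⟨⨆ z, U z, fun z hz => TopologicalSpace.Opens.mem_iSup.2 ⟨⟨z, hz⟩, zU _⟩,
    cp_of hK fr h0 hB (by omega) f0 (fun E hE P hP => ?_) fun x hx P hP => ?_⟩
  · obtain ⟨z, hz⟩ := mem _ hE
    obtain ⟨Q, q, o⟩ := pl_of plc E
    obtain rfl := pl_eq q hP
    have b2 : φ ∈ Q.sub (-((2 * N : ℕ) * (cn X.K (n + 1) Q + B E))) :=
      (Submodule.span_le.2 fun z' hz' => by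
        obtain ⟨j, -, rfl⟩ := Finset.mem_image.1 hz'
        exact Q.mem_sub.2 (.inr (by linarith [p1 j E (UV z hz) Q q]))) f1
    have b3 := (Q.mem_sub.1 b2).resolve_left f0
    simp only [dsc, Pi.sub_apply, Pi.smul_apply, dv, smul_eq_mul]
    have : cn X.K (n + 1) Q + B E ≤ ((2 * N : ℕ) : ℝ)⁻¹ * Q.ord φ := by
      rw [le_inv_mul_iff₀ N0]
      linarith
    linarith
  · obtain ⟨z, hz⟩ := mem _ hx
    exact hk z P (fun c hc => (hP c ((b₀.mem c).1 hc x (UV z hz))).1) (hP.rd (hU z x hz))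

end Vale.Agent.P283R.Bc
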