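import Vale.Agent.P283R.Bc.Dsc

/-!
# P283R, block BC: finite covers with `K_Y + B' = π^* (K_X + B)`, ramification allowed
-/

set_option linter.all false

open Set CategoryTheory AlgebraicGeometry

noncomputable section

namespace Vale.Agent.P283R.Bc

open Vale.Agent.P289 (Pt St toRat val DForm dimension)
open Vale.Agent.P287D Vale.Agent.P283M Vale.Agent.P283M.Stm Vale.Agent.P283M.Stm.Var
open Vale.Agent.P283M.Br Vale.Agent.P283R.Br Vale.Agent.P297Z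
open Vale.Agent.P283R.Et (Pe Rat exists_rat)
open Vale.Agent.P283R.Eb (ord_mul' ord_pow')

variable {X Y Z : Var}

/-- `π` is finite, onto, of degree at most `J` -/
structure Fp (J : ℕ) (π : Y.X ⟶ X.X) (ι : X.K →+* Y.K) : Prop where
  fin : IsFinite π
  sur : Surjective π
  ov : π ≫ X.str = Y.str
  pe : Pe π ι
  deg : ∃ b : Fin J → Y.K, ∀ g, ∃ c : Fin J → X.K, g = ∑ i, ι (c i) * b i

/-- the ramification formula, with `B'` effective -/
def Ram (π : Y.X ⟶ X.X) (ι : X.K →+* Y.K) (B' : Y.QDiv) (B : X.QDiv) : Prop :=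
  ∀ E : Y.PrimeDiv, ∃ (y : X.PrimeDiv) (e : ℕ), E.1.map π = y.1 ∧
    (∀ a, ord (ι a) E = e * ord a y) ∧ 0 ≤ B' E ∧ 1 - B' E = e * (1 - B y)

/-- `D' = π^* D + div j` -/
def Crp (π : Y.X ⟶ X.X) (ι : X.K →+* Y.K) (D' : Y.PrimeDiv → ℚ) (D : X.PrimeDiv → ℚ) (j : Y.K) :
    Prop :=
  j ≠ 0 ∧ ∀ {x : Pt Y.X} {m : ℕ} {g : X.K}, LocalEq D m g (x.map π) → LocalEq D' m (ι g * j ^ m) x

variable {π : Y.X ⟶ X.X} {ι : X.K →+* Y.K} {J d m n : ℕ}

theorem Fp.tower (h : Fp J π ι) : letI := ι.toAlgebra; IsScalarTower ℂ X.K Y.K :=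
  letI := ι.toAlgebra
  .of_algebraMap_eq fun c => (h.pe.cst h.ov c).symm

theorem Fp.rank (h : Fp J π ι) :
    letI := ι.toAlgebra; FiniteDimensional X.K Y.K ∧ Module.finrank X.K Y.K ≤ J := by
  let _ := ι.toAlgebra
  obtain ⟨b, hb⟩ := h.deg
  have e : Submodule.span X.K (range b) = ⊤ := eq_top_iff.2 fun g _ => by
    obtain ⟨c, rfl⟩ := hb g
    exact Submodule.sum_mem _ fun i _ => Submodule.smul_mem _ (c i) (Submodule.subset_span ⟨i, rfl⟩)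
  exact ⟨Module.Finite.of_fg_top (e ▸ Submodule.fg_span (finite_range b)),
    (finrank_le_of_span_eq_top e).trans_eq (Fintype.card_fin J)⟩

theorem Fp.ff (h : Fp J π ι) (hK : FF X.K d) : FF Y.K d := by
  let _ := ι.toAlgebra
  have := h.tower
  have := h.rank.1
  exact Hd.ff_up hK

theorem Fp.dim (h : Fp J π ι) (hd : dimension X.str = d) : dimension Y.str = d :=
  (h.ff (ffd X d hd)).trdeg

/-- centres of places go down -/
theorem Fp.dom (h : Fp J π ι) {Q : Pl Y.K} {P : Pl X.K} (l : Lies ι Q P) {x : Pt Y.X}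
    (hx : Dom Q.ring x) : Dom P.ring (x.map π) := fun a ha => by
  have r := h.pe.reg ha
  refine ⟨(l a).2 (hx _ r).1, fun a0 k => ?_⟩
  have a1 := (map_ne_zero ι).2 a0
  exact ((h.pe.un ha).1 ⟨a1, r, (hx _ r).2 a1 (map_inv₀ ι a ▸ (l _).1 k)⟩).2.2

/-- centres of places go up -/
theorem Fp.up (h : Fp J π ι) {Q : Pl Y.K} {P : Pl X.K} (l : Lies ι Q P) {x : Pt X.X}
    (hx : Dom P.ring x) : ∃ y : Pt Y.X, y.map π = x ∧ Dom Q.ring y := by
  have := h.fin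
  obtain ⟨_, ⟨V, hV, rfl⟩, xV, -⟩ :=
    X.X.isBasis_affineOpens.exists_subset_of_mem_open (Set.mem_univ x) isOpen_univ
  obtain ⟨y₀, rfl⟩ := h.sur.surj x
  have : Nonempty ↑(π ⁻¹ᵁ V) := ⟨⟨y₀, xV⟩⟩
  obtain ⟨y, -, k⟩ := Am.exists_dom (f := π) hV Q.ring fun a => by
    rw [← Am.pl_germ xV a]
    exact (congrArg (· ∈ Q.ring) (h.pe y₀ _)).mp ((l _).1 (hx _ ⟨_, rfl⟩).1)
  exact ⟨y, Crv.dom_unique (dom_S (h.dom l (dom_B k))) (dom_S hx), dom_B k⟩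

theorem Fp.lin (h : Fp J π ι) (hK : FF X.K d) {ω : DForm ℂ X.K d}
    {ω' : DForm ℂ Y.K d} {s : X.K} {s' j : Y.K} (s0 : s ≠ 0) (s0' : s' ≠ 0) (fr : Br.Frm ω s)
    (fr' : Br.Frm ω' s') (hJ : letI := ι.toAlgebra; Rat d X.K j) {B : X.QDiv} {B' : Y.QDiv}
    (hs : Ram π ι B' B) : Crp π ι (logCan ω' B') (logCan ω B) (j * s' / ι s) := by
  let _ := ι.toAlgebra
  have := h.tower
  have hK' := h.ff hK
  have s1 := (map_ne_zero ι).2 s0
  have j0 := div_ne_zero (mul_ne_zero hJ.1 s0') s1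
  refine ⟨j0, fun {x m g} hg => ?_⟩
  have g0 := (map_ne_zero ι).2 hg.1
  refine ⟨mul_ne_zero g0 (pow_ne_zero _ j0), fun E hE => ?_⟩
  obtain ⟨y, e, y1, y2, -, y3⟩ := hs E
  have b := hg.2 y (y1 ▸ hE.map π.continuous)
  obtain ⟨Q, q, o⟩ := pl_of plc E
  obtain ⟨P, p, o'⟩ := pl_of plc y
  obtain ⟨P', l⟩ := Pb.down hK hK' Q
  obtain rfl := pl_eq p (y1 ▸ h.dom l q.dom)
  have oo : ∀ a, Q.ord (ι a) = e * P.ord a := fun a => by rw [← o, ← o', y2]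
  have k := hJ.dsc_up hK hK' one_pos one_ne_zero l
  have e1 : Q.ord (algebraMap X.K Y.K P.t) = e := (oo _).trans (by rw [P.ord_t, mul_one])
  rw [e1] at k
  simp only [dsc, Pi.sub_apply, Pi.smul_apply, smul_eq_mul, dv_apply, map_one, one_mul, pow_one,
    Nat.cast_one, inv_one, Pl.ord_one, Int.cast_zero, sub_zero, Int.cast_natCast] at k
  have a := fr _ _ y P p o'
  have a' := fr' _ _ E Q q o
  have c : logCan ω' B' E = e * logCan ω B y + ord (j * s' / ι s) E := by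
    rw [logCan, logCan, o, Pl.ord_div _ (mul_ne_zero hJ.1 s0') s1, Pl.ord_mul _ hJ.1 s0', oo,
      ← Rat.cast_inj (α := ℝ)]
    rw [← Rat.cast_inj (α := ℝ)] at y3
    push_cast at y3 ⊢
    rw [a, a']
    linarith
  rw [ord_mul' g0 (pow_ne_zero _ j0), ord_pow', y2, c]
  push_cast
  rw [b]
  ring

theorem Fp.can (h : Fp J π ι) {ω : DForm ℂ X.K d} {ω' : DForm ℂ Y.K d} (hd : dimension X.str = d)
    (h0 : ω.Nonzero) (h0' : ω'.Nonzero) : ∃ j, ∀ (B : X.QDiv) (B' : Y.QDiv),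
      Ram π ι B' B → Crp π ι (logCan ω' B') (logCan ω B) j := by
  let _ := ι.toAlgebra
  have := h.tower
  have hK := ffd X _ hd
  have hK' := h.ff hK
  obtain ⟨s, s0, fr⟩ := frm X _ hK ω h0
  obtain ⟨s', s0', fr'⟩ := frm Y _ hK' ω' h0'
  obtain ⟨J, hJ⟩ := exists_rat hK hK'
  exact ⟨_, fun B B' hs => h.lin hK s0 s0' fr fr' hJ hs⟩

theorem Fp.pai (h : Fp J π ι) {ω : DForm ℂ X.K d} {ω' : DForm ℂ Y.K d} {B : X.QDiv} {B' : Y.QDiv}
    {p : ℝ → Prop} (hd : dimension X.str = d) (h0 : ω.Nonzero) (h0' : ω'.Nonzero)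
    (hs : Ram π ι B' B) (hp : ∀ a e : ℝ, 1 ≤ e → p a → p (e * a)) (hB : Pair p ⊤ ω B) :
    Pair p ⊤ ω' B' := by
  let _ := ι.toAlgebra
  have := h.tower
  have hK := ffd X _ hd
  have hK' := h.ff hK
  obtain ⟨s, s0, fr⟩ := frm X _ hK ω h0
  obtain ⟨s', s0', fr'⟩ := frm Y _ hK' ω' h0'
  obtain ⟨J, hJ⟩ := exists_rat hK hK'
  have l := h.lin hK s0 s0' fr fr' hJ hs
  refine ⟨fun E _ => ?_, fun x _ => ?_, fun M E _ m' g' m0' hg' => ?_⟩
  · obtain ⟨y, e, -, -, k, -⟩ := hs E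
    exact k
  · obtain ⟨m, g, m0, hg⟩ := hB.2.1 (Pt.map π x) trivial
    exact ⟨m, _, m0, l.2 hg⟩
  · obtain ⟨⟨Q, q⟩, o⟩ := plc Y M.Y M.pull (mdc Y M).1 E
    have dq := (mdc Y M).2 E Q q
    obtain ⟨P, lp⟩ := Pb.down hK hK' Q
    have dp := h.dom lp dq
    obtain ⟨m, g, m0, hg⟩ := hB.2.1 (Pt.map π (Pt.map M.π E.1)) trivial
    have lq := l.2 hg
    obtain ⟨M₀, E₀, e₀, i⟩ := mod X P _ dp
    have o₀ := (plc X M₀.Y M₀.pull (mdc X M₀).1 E₀).2 P i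
    have a := hB.2.2 M₀ E₀ trivial m g m0 (e₀ ▸ hg)
    rw [fr _ _ E₀ P i o₀, o₀, ← dsc_eq m0 hg.1 s0] at a
    have e1 : (1 : ℝ) ≤ Q.ord (algebraMap X.K Y.K P.t) := by exact_mod_cast lp.e_pos
    have b := hp _ _ e1 a
    have s1 := (map_ne_zero ι).2 s0
    have c : algebraMap X.K Y.K (g / s ^ m) * J ^ m = ι g * (J * s' / ι s) ^ m / s' ^ m := by
      change ι _ * _ = _
      rw [map_div₀, map_pow, div_pow, mul_pow]
      field_simp
    rw [← hJ.dsc_up hK hK' m0 (div_ne_zero hg.1 (pow_ne_zero _ s0)) lp, c,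
      dsc_eq m0 lq.1 s0'] at b
    have u := loc_uniq har plc hg' lq dq
    have u' : (Q.ord g' : ℝ) / m' = Q.ord (ι g * (J * s' / ι s) ^ m) / m := by
      rw [div_eq_div_iff (Nat.cast_ne_zero.2 m0'.ne') (Nat.cast_ne_zero.2 m0.ne')]
      linarith
    rw [fr' _ _ E Q q (o Q q), o Q q, u']
    exact b

/-- **the descent** -/
theorem Fp.dsc (h : Fp J π ι) {f : X.X ⟶ Z.X} (hf : Contraction f) {ω : DForm ℂ X.K d}
    {ω' : DForm ℂ Y.K d} {B : X.QDiv} {B' : Y.QDiv} {z : Pt Z.X} (hd : 1 ≤ d) (hn : 1 ≤ n)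
    (hdim : dimension X.str = d) (h0 : ω.Nonzero) (h0' : ω'.Nonzero) (hs : Ram π ι B' B)
    (hB : ∀ y, 0 ≤ B y) (qc : ∀ x, ∃ m a, 0 < m ∧ LocalEq (logCan ω B) m a x) {T : Y.X.Opens}
    (hT : ∀ y : Pt Y.X, (y.map π).map f = z → y ∈ T) (c : Cp T ω' B' n) :
    ∃ r, 1 ≤ r ∧ r ≤ J ∧ HasKltComplement f ω B (n * r) z := by
  obtain ⟨d, rfl⟩ : ∃ m, d = m + 1 := ⟨d - 1, by omega⟩
  obtain ⟨Λ, φ, hΛ, hp, lq⟩ := c
  let _ := ι.toAlgebra
  have := h.tower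
  have := h.rank.1
  have := h.fin
  have := hf.2.1
  have hK := ffd X _ hdim
  have hK' := h.ff hK
  obtain ⟨s, s0, fr⟩ := frm X _ hK ω h0
  obtain ⟨s', s0', fr'⟩ := frm Y _ hK' ω' h0'
  obtain ⟨j, hj⟩ := exists_rat hK hK'
  have l := h.lin hK s0 s0' fr fr' hj hs
  obtain ⟨x₀, hx₀⟩ := hf.2.2.1.surj z
  obtain ⟨y₀, rfl⟩ := h.sur.surj x₀
  have φ0 : φ ≠ 0 := (lq y₀ (hT y₀ hx₀)).1
  have n0 : (0 : ℝ) < n := Nat.cast_pos.2 hn
  have r1 : 1 ≤ Module.finrank X.K Y.K := Module.finrank_pos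
  have r0 : (0 : ℝ) < Module.finrank X.K Y.K := Nat.cast_pos.2 r1
  have j1 := pow_ne_zero n (mul_ne_zero s0' hj.1)
  have o : ∀ Q : Pl Y.K, (Q.ord (φ / (s' * j) ^ n) : ℝ) = Q.ord φ - n * (Q.ord s' + Q.ord j) :=
    fun Q => by
      rw [Pl.ord_div _ φ0 j1, Pl.ord_pow, Pl.ord_mul _ s0' hj.1]
      push_cast
      rfl
  obtain ⟨ψ, ψ0, H⟩ := nrm hK hK' (div_ne_zero φ0 j1)
  let U : Z.X.Opens := ⟨((π ≫ f) '' (T : Set Y.X)ᶜ)ᶜ,
    ((π ≫ f).isClosedMap _ T.isOpen.isClosed_compl).isOpen_compl⟩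
  have up : ∀ x ∈ f ⁻¹ᵁ U, ∀ (P : Pl X.K) (Q : Pl Y.K), Dom P.ring x →
      Lies (algebraMap X.K Y.K) Q P → ∃ y ∈ T, Pt.map π y = x ∧ Dom Q.ring y := by
    intro x hx P Q p q
    obtain ⟨y, rfl, k⟩ := h.up q p
    exact ⟨y, by_contra fun c => hx ⟨y, c, rfl⟩, rfl, k⟩
  refine ⟨_, r1, h.rank.2, cpl hK fr s0 hB (U := U) (fun ⟨y, c, e⟩ => c (hT y e))
    (Nat.mul_pos hn r1) ψ0 (fun E hE P p => ?_) fun x hx P p => ?_⟩
  · have a := (H P (n * (cn X.K (d + 1) P + B E))).1 fun Q q => by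
      obtain ⟨y, yT, e, k⟩ := up _ hE P Q p q
      obtain ⟨m, a, m0, ha⟩ := qc E.1
      have m1 : (0 : ℝ) < m := Nat.cast_pos.2 m0
      have b := ord_le (l.2 (e ▸ ha)) (lq y yT) (fun E' hE' => by
        rw [logCan, logCan]
        exact add_le_add_right (hΛ E' (hE'.mem_open T.isOpen yT)) _) k
      obtain ⟨P', p', o'⟩ := pl_of plc E
      obtain rfl := pl_eq p' p
      have c : (P'.ord a : ℝ) = m * (formOrd ω (RingEquiv.refl X.K) E + (B E : ℝ)) := by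
        have := ha.2 E specializes_rfl
        rw [o', logCan] at this
        exact_mod_cast this
      have s1 := (map_ne_zero ι).2 s0
      rw [fr _ _ E P' p' o'] at c
      rw [Pl.ord_mul _ ((map_ne_zero ι).2 ha.1) (pow_ne_zero _ l.1), Pl.ord_pow,
        Pl.ord_div _ (mul_ne_zero hj.1 s0') s1, Pl.ord_mul _ hj.1 s0'] at b
      have e1 : Q.ord (ι a) = Q.ord (algebraMap X.K Y.K P'.t) * P'.ord a := q.ord a
      have e2 : Q.ord (ι s) = Q.ord (algebraMap X.K Y.K P'.t) * P'.ord s := q.ord s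
      rw [e1, e2] at b
      push_cast at b
      rw [c] at b
      rw [o]
      refine le_of_mul_le_mul_left ?_ m1
      linarith
    simp only [dsc, Pi.sub_apply, Pi.smul_apply, dv_apply, smul_eq_mul]
    have : cn X.K (d + 1) P + B E ≤ ((n * Module.finrank X.K Y.K : ℕ) : ℝ)⁻¹ * P.ord ψ := by
      rw [le_inv_mul_iff₀ (by positivity)]
      push_cast
      linarith
    linarith
  · have a := (H P (n * (1 + cn X.K (d + 1) P))).2 fun Q q => by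
      obtain ⟨y, yT, -, k⟩ := up _ hx P Q p q
      obtain ⟨M, E, rfl, i⟩ := mod Y Q y k
      have oq := (plc Y M.Y M.pull (mdc Y M).1 E).2 Q i
      have b := hp.2.2 M E yT n φ hn (lq _ yT)
      rw [fr' _ _ E Q i oq, oq] at b
      have c := hj.dsc_up hK hK' one_pos one_ne_zero q
      simp only [dsc, Pi.sub_apply, Pi.smul_apply, smul_eq_mul, dv_apply, map_one, one_mul,
        pow_one, Nat.cast_one, inv_one, Pl.ord_one, Int.cast_zero, sub_zero] at c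
      have b' : (Q.ord φ : ℝ) < n * (1 + cn Y.K (d + 1) Q + Q.ord s') := by
        rw [← div_lt_iff₀' n0]
        linarith
      rw [o, mul_assoc, mul_comm _ (Q.ord (algebraMap X.K Y.K P.t) : ℝ), ← c]
      linarith
    simp only [dsc, Pi.sub_apply, Pi.smul_apply, dv_apply, smul_eq_mul]
    have : ((n * Module.finrank X.K Y.K : ℕ) : ℝ)⁻¹ * P.ord ψ < 1 + cn X.K (d + 1) P := by
      rw [inv_mul_lt_iff₀ (by positivity)]
      push_cast
      linarith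
    linarith

end Vale.Agent.P283R.Bc
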