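import Vale.Agent.P283R.Bc.Glu
import Vale.Agent.P283R.Bc.Ram
import Vale.Agent.P283R.Sl.Un
import Vale.Agent.P283R.Sl.Bc

/-!
# P283R, block BC: bounded klt complements descend along finite covers of bounded degree
-/

open CategoryTheory AlgebraicGeometry

namespace Vale.Agent.P283R.Sl

open Var

variable {C : ∀ (d : ℕ) (X Z : Var), (X.X ⟶ Z.X) → X.Form d → X.QDiv → Pt Z.X → Prop}

/-- the coefficients on the covers -/
theorem cov_coeff (R : Finset ℚ) (hR : ∀ r ∈ R, 0 ≤ r ∧ r ≤ 1) : ∃ R' : Finset ℚ,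
    (∀ r ∈ R', 0 ≤ r ∧ r ≤ 1) ∧ ∀ (b b' : ℚ) (e : ℕ), (b ≠ 0 → b ∈ R) → 0 ≤ b' →
      1 - b' = e * (1 - b) → b' ∈ R' := by
  classical
  refine ⟨((insert 0 R).biUnion fun r => (Finset.range (⌈1 / (1 - r)⌉₊ + 1)).image
    fun e : ℕ => 1 - e * (1 - r)).filter fun x => 0 ≤ x ∧ x ≤ 1,
    fun r a => (Finset.mem_filter.1 a).2, fun b b' e a c k => ?_⟩
  have m : b ∈ insert 0 R := by
    by_cases o : b = 0
    · exact o ▸ Finset.mem_insert_self _ _
    · exact Finset.mem_insert_of_mem (a o)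
  have b1 : 0 ≤ 1 - b := by
    rcases Finset.mem_insert.1 m with o | o
    · rw [o]
      norm_num
    · exact sub_nonneg.2 (hR b o).2
  have e0 : (0 : ℚ) ≤ e * (1 - b) := mul_nonneg (Nat.cast_nonneg e) b1
  refine Finset.mem_filter.2 ⟨Finset.mem_biUnion.2 ⟨b, m, Finset.mem_image.2 ?_⟩, c, by linarith⟩
  rcases b1.eq_or_lt with o | o
  · exact ⟨0, Finset.mem_range.2 (Nat.succ_pos _), by rw [← o, mul_zero] at k; push_cast; linarith⟩
  · refine ⟨e, Finset.mem_range.2 (Nat.lt_succ_of_le ?_), by linarith⟩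
    rw [← Nat.cast_le (α := ℚ)]
    exact ((le_div_iff₀ o).2 (by linarith)).trans (Nat.le_ceil _)

theorem closed_fin {W Z : Var} (e : W.X ⟶ Z.X) [IsFinite e] {w : Pt W.X}
    (hz : (w.map e).Closed) : w.Closed := by
  have d := e.isDiscrete_preimage_singleton (e w)
  have c : IsClosed (e ⁻¹' {e w}) := hz.preimage e.continuous
  have := d.to_subtype
  have k := c.isClosedEmbedding_subtypeVal.isClosedMap {⟨w, rfl⟩} (isClosed_discrete _)
  rwa [Set.image_singleton] at k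

/-- **bounded klt complements descend along finite covers of bounded degree** -/
theorem on_cov (h : On C) (J : ℕ) : On fun d _ _ f _ B z => Covered J (C d) f B z := by
  intro d hd ε hε R hR
  obtain ⟨R', hR', k⟩ := cov_coeff R hR
  obtain ⟨n, hn, K⟩ := h d hd ε hε R' hR'
  refine ⟨2 * n * J.factorial, Nat.mul_pos (by omega) J.factorial_pos,
    fun X Z f ω B z a b c r s t u => ?_⟩
  obtain ⟨Y, W, g, π, e, ω', B', ⟨p1, p2, p3, ι, p4, p5, hs⟩, hg, he, sq, h0, hc⟩ := u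
  have fp : Bc.Fp (X := X.o) (Y := Y.o) J π ι := ⟨p1, p2, p3, p4, p5⟩
  have c' := (pair_iff _ _ ω B).1 c
  have c1 := fp.pai (B' := B') a b h0 hs (fun x y p q => by nlinarith) c'
  obtain ⟨_, ⟨V, hV, rfl⟩, zV, -⟩ :=
    Z.X.isBasis_affineOpens.exists_subset_of_mem_open (Set.mem_univ z) isOpen_univ
  have q : ∀ y : Pt Y.X, (y.map g).map e = (y.map π).map f := fun y => by
    change (g ≫ e) y = (π ≫ f) y
    rw [sq]
  obtain ⟨U, hU, cp⟩ := Bc.glue (X := Y.o) (Z := W.o) (f := g) (N := n) (B := B') hg hd (fp.dim a)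
    h0 (fun E => c1.1 E trivial) (hV.preimage e) (e.finite_preimage_singleton z) (by
      obtain ⟨x, rfl⟩ := s.2.2.1.surj z
      obtain ⟨y, rfl⟩ := p2.surj x
      exact ⟨g y, q y⟩) hn fun w hw => by
      have w1 : Pt.map e w = z := hw
      have w2 : Pt.Closed w := closed_fin e (w1 ▸ t)
      refine ⟨show Pt.map e w ∈ V from w1 ▸ zV, w2, (has_iff g ω' B' _ _).1 (K Y W g ω' B' w (fp.dim a) h0
        ((pair_iff _ _ ω' B').2 c1) (fun E _ => ?_) hg w2 (hc w w1))⟩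
      obtain ⟨y, m, -, -, i, j⟩ := hs E
      exact k _ _ m (r y) i j
  obtain ⟨m, m1, m2, H⟩ := fp.dsc (Z := Z.o) (f := f) (z := z) s hd (by omega) a b h0 hs
    (fun y => c'.1 y trivial) (fun x => c'.2.1 x trivial)
    (fun y hy => hU (g y) ((q y).trans hy)) cp
  exact ((has_iff f ω B _ _).2 H).of_dvd (Nat.mul_dvd_mul_left _ (Nat.dvd_factorial m1 m2))

end Vale.Agent.P283R.Sl
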