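import Vale.Agent.P283R.Bc.On
import Vale.Agent.P283R.Cx.Ga

/-!
# P283R, block BC: the trivial cover, and the index as a function of one number
-/

open CategoryTheory AlgebraicGeometry

namespace Vale.Agent.P283R.Sl

open Var

variable {X Z : Var} {d J : ℕ} {f : X.X ⟶ Z.X} {ω : X.Form d} {B : X.QDiv} {z : Pt Z.X}

/-- the identity is a cover -/
theorem cov_refl {C : ∀ Y W : Var, (Y.X ⟶ W.X) → Y.Form d → Y.QDiv → Pt W.X → Prop} (hJ : 1 ≤ J)
    (hf : Contraction f) (h0 : ω.Nonzero) (hB : ∀ E, 0 ≤ B.coeff E) (h : C X Z f ω B z) :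
    Covered J C f B z := by
  classical
  refine ⟨X, Z, f, 𝟙 _, 𝟙 _, ω, B, ⟨inferInstance, inferInstance, Category.id_comp _,
    RingHom.id _, fun y a => ?_, ⟨fun _ => 1, fun g => ⟨Pi.single ⟨0, hJ⟩ g, ?_⟩⟩,
    fun E => ⟨E, 1, rfl, fun a => by simp, hB E, by simp⟩⟩, hf, inferInstance, by simp, h0,
    fun w e => (show w = z from e) ▸ h⟩
  · exact congrArg toRat (congrArg (fun φ => φ.hom a) (Scheme.Hom.stalkMap_id X.X y)).symm
  · rw [Finset.sum_eq_single ⟨0, hJ⟩ (fun j _ c => by simp [c]) (by simp)]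
    simp

theorem gen_mono {l l' : ℕ} (h : Generated l f ω B z) (e : l ≤ l') : Generated l' f ω B z :=
  let ⟨k, N, V, D, a, b⟩ := h
  ⟨k, N, V, D, a.trans (Nat.add_le_add_left e k), b⟩

/-- one number bounds the degree of the cover and the number of the generators -/
theorem masterC
    (h : ∀ l, On fun _ _ _ f ω B z => FanoType f ω ∧ NefOver f (-logCan ω B) ∧ Generated l f ω B z)
    (hu : UN) (d : ℕ) (hd : 1 ≤ d) (ε : ℝ) (hε : 0 < ε) (R : Finset ℚ)
    (hR : ∀ r ∈ R, 0 ≤ r ∧ r ≤ 1) :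
    ∃ n : ℕ → ℕ, (∀ l, 1 ≤ n l) ∧ ∀ (X Z : Var) (f : X.X ⟶ Z.X) (ω : X.Form d) (B : X.QDiv)
      (z : Pt Z.X), dimension X.str = d → ω.Nonzero → Pair (ε ≤ ·) (all X.X) ω B →
      (∀ y, B.coeff y ≠ 0 → B.coeff y ∈ R) → Contraction f → z.Closed →
      (FanoType f ω → NefOver f (-logCan ω B) → ∃ l, Covered l (fun _ _ g η C w =>
        FanoType (d := d) g η ∧ NefOver g (-logCan η C) ∧ Generated l g η C w) f B z) ∧
      ∀ l, Covered l (fun _ _ g η C w =>
        FanoType (d := d) g η ∧ NefOver g (-logCan η C) ∧ Generated l g η C w) f B z →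
        HasKltComplement f ω B (n l) z := by
  choose n n1 H using fun l => on_cov (h l) l d hd ε hε R hR
  refine ⟨n, n1, fun X Z f ω B z a b c e s t => ⟨fun u v => ?_,
    fun l w => H l X Z f ω B z a b c e s t w⟩⟩
  obtain ⟨l, w⟩ := gen_all hu hd X Z f ω B z a b s u t
  exact ⟨l + 1, cov_refl (Nat.le_add_left 1 l) s b (fun E => c.1 E trivial)
    ⟨u, v, gen_mono w (Nat.le_succ l)⟩⟩

end Vale.Agent.P283R.Sl
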